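import Mathlib

/-!
P338-D: roots of unity `zt N k = exp(2 pi i k / N)`.
-/

namespace Vale.Agent.P338.R3.H352

open Complex

/-- `exp(2 pi i k / N)`. -/
noncomputable def zt (N : ℕ) (k : ℤ) : ℂ := exp (2 * Real.pi * I * ((k : ℂ) / (N : ℂ)))

theorem zt_zero (N : ℕ) : zt N 0 = 1 := by simp [zt]

theorem zt_add (N : ℕ) (a b : ℤ) : zt N (a + b) = zt N a * zt N b := by
  unfold zt
  rw [← Complex.exp_add]
  congr 1
  push_cast
  ring

theorem zt_neg_mul (N : ℕ) (a : ℤ) : zt N (-a) * zt N a = 1 := by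
  rw [← zt_add]
  simp [zt_zero]

theorem zt_mul_neg (N : ℕ) (a : ℤ) : zt N a * zt N (-a) = 1 := by
  rw [← zt_add]
  simp [zt_zero]

theorem zt_ne_zero (N : ℕ) (a : ℤ) : zt N a ≠ 0 := Complex.exp_ne_zero _

theorem zt_sub (N : ℕ) (a b : ℤ) : zt N (a - b) = zt N a * zt N (-b) := by
  rw [← zt_add, sub_eq_add_neg]

theorem zt_mul_self {N : ℕ} (hN : 0 < N) (k : ℤ) : zt N (k * N) = 1 := by
  unfold zt
  have hN' : (N : ℂ) ≠ 0 := by exact_mod_cast hN.ne'
  rw [show (2 * Real.pi * I * (((k * N : ℤ) : ℂ) / (N : ℂ)) : ℂ) = k * (2 * Real.pi * I) by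
    push_cast
    field_simp]
  exact Complex.exp_int_mul_two_pi_mul_I k

theorem zt_congr {N : ℕ} (hN : 0 < N) {a b : ℤ} (h : a ≡ b [ZMOD N]) : zt N a = zt N b := by
  obtain ⟨c, hc⟩ := (Int.modEq_iff_dvd.1 h)
  have h1 : b = a + c * N := by linarith [hc, mul_comm (N : ℤ) c]
  rw [h1, zt_add, zt_mul_self hN, mul_one]

theorem zt_scale {N m : ℕ} (hm : 0 < m) (k : ℤ) : zt (N * m) (k * m) = zt N k := by
  unfold zt
  have hm' : (m : ℂ) ≠ 0 := by exact_mod_cast hm.ne'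
  congr 2
  push_cast
  by_cases hN : (N : ℂ) = 0
  · simp [hN]
  · field_simp

theorem zt_scale' {N m : ℕ} (hm : 0 < m) (k : ℤ) : zt (m * N) (m * k) = zt N k := by
  rw [mul_comm m N, mul_comm (m : ℤ) k, zt_scale hm]

theorem zt_half {N : ℕ} (hN : 0 < N) : zt (2 * N) N = -1 := by
  unfold zt
  have hN' : (N : ℂ) ≠ 0 := by exact_mod_cast hN.ne'
  rw [show (2 * Real.pi * I * (((N : ℤ) : ℂ) / ((2 * N : ℕ) : ℂ)) : ℂ) = Real.pi * I by
    push_cast
    field_simp]
  exact Complex.exp_pi_mul_I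

theorem norm_zt (N : ℕ) (k : ℤ) : ‖zt N k‖ = 1 := by
  unfold zt
  rw [show (2 * Real.pi * I * ((k : ℂ) / (N : ℂ)) : ℂ) =
    ((2 * Real.pi * ((k : ℝ) / (N : ℝ)) : ℝ) : ℂ) * I by push_cast; ring]
  exact Complex.norm_exp_ofReal_mul_I _

theorem zt_pow (N : ℕ) (a : ℤ) (n : ℕ) : zt N a ^ n = zt N (n * a) := by
  induction n with
  | zero => simp [zt_zero]
  | succ n ih => rw [pow_succ, ih, ← zt_add]; congr 1; push_cast; ring

theorem zt_inv (N : ℕ) (a : ℤ) : (zt N a)⁻¹ = zt N (-a) := by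
  rw [inv_eq_iff_eq_inv, eq_comm]
  exact inv_eq_of_mul_eq_one_right (zt_neg_mul N a)

/-- Geometric sums. -/
theorem sum_zt {N : ℕ} (hN : 0 < N) (a : ℤ) :
    ∑ j ∈ Finset.range N, zt N (j * a) = if (N : ℤ) ∣ a then (N : ℂ) else 0 := by
  split_ifs with h
  · have h1 : ∀ j ∈ Finset.range N, zt N (j * a) = 1 := by
      intro j _
      obtain ⟨c, hc⟩ := h
      rw [show (j : ℤ) * a = (j * c) * N by rw [hc]; ring]
      exact zt_mul_self hN _
    rw [Finset.sum_congr rfl h1]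
    simp
  · have h1 : zt N a ≠ 1 := by
      intro h1
      apply h
      unfold zt at h1
      rw [Complex.exp_eq_one_iff] at h1
      obtain ⟨n, hn⟩ := h1
      have hN' : (N : ℂ) ≠ 0 := by exact_mod_cast hN.ne'
      have h2 : (2 * Real.pi * I : ℂ) ≠ 0 := Complex.two_pi_I_ne_zero
      have h3 : ((a : ℂ) / N) = n := by
        have : (2 * Real.pi * I : ℂ) * ((a : ℂ) / N) = (2 * Real.pi * I) * n := by
          rw [hn]; ring
        exact mul_left_cancel₀ h2 this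
      have h4 : (a : ℂ) = n * N := by
        field_simp at h3
        linear_combination h3
      exact ⟨n, by
        have : ((a : ℤ) : ℂ) = ((N * n : ℤ) : ℂ) := by push_cast; rw [h4]; ring
        exact_mod_cast this⟩
    have h2 : ∀ j ∈ Finset.range N, zt N (j * a) = zt N a ^ j := by
      intro j _
      rw [zt_pow]
    rw [Finset.sum_congr rfl h2, geom_sum_eq h1, zt_pow]
    have : zt N ((N : ℕ) * a) = 1 := by
      rw [mul_comm]
      exact zt_mul_self hN a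
    rw [this]
    simp

end Vale.Agent.P338.R3.H352
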