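import Vale.Agent.P338.R3.H352.Run
import Vale.Agent.P338.R3.H282.Step

/-!
P338-D, module DFT: adapter to `H282.Step` and the matrix form.
-/

namespace Vale.Agent.P338.R3.H352

open Complex Finset

/-- The local layers in the format of `H282.Step`. -/
def toL : Ly → H282.Ly Dc
  | .dn t => .dn t
  | .up t => .up t
  | .dg c => .dg c

/-- The program of one digit in the format of `H282.Step`. -/
def lprog (a : ℕ) : List (H282.Ly Dc) := (prog a).map toL

/-- The values of the diagonals, radix first. -/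
noncomputable def lval (a s : ℕ) (c : Dc) (p : ℕ) : ℂ := c.val a s p

theorem lo_iff_testBit (t v : ℕ) : lo t v ↔ v.testBit t = false := by
  rw [lo_iff, Nat.testBit_eq_decide_div_mod_eq, decide_eq_false_iff_not]
  omega

theorem dnv_eq (t : ℕ) (x : ℕ → ℂ) : dnv t x = H282.dnF t x := by
  funext v
  unfold dnv H282.dnF
  by_cases h : lo t v
  · have h1 := (lo_iff_testBit t v).1 h
    simp [h, h1]
  · have h1 : v.testBit t = true := by
      by_contra h2
      exact h ((lo_iff_testBit t v).2 (by simpa using h2))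
    simp [h, h1]

theorem upv_eq (t : ℕ) (x : ℕ → ℂ) : upv t x = H282.upF t x := by
  funext v
  unfold upv H282.upF
  by_cases h : lo t v
  · have h1 := (lo_iff_testBit t v).1 h
    simp [h, h1]
  · have h1 : v.testBit t = true := by
      by_contra h2
      exact h ((lo_iff_testBit t v).2 (by simpa using h2))
    simp [h, h1]

/-- The map `g` is given by its kernel on `[0, N)`. -/
def Lin (N : ℕ) (g : (ℕ → ℂ) → ℕ → ℂ) : Prop :=
  ∀ f, ∀ p < N, g f p = ∑ j ∈ range N, g (Pi.single j 1) p * f j

theorem Lin.comp {N : ℕ} {g h : (ℕ → ℂ) → ℕ → ℂ} (hg : Lin N g) (hh : Lin N h) :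
    Lin N (fun f => g (h f)) := by
  intro f p hp
  beta_reduce
  rw [hg (h f) p hp]
  have h1 : ∀ j ∈ range N, g (Pi.single j 1) p * h f j =
      ∑ i ∈ range N, g (Pi.single j 1) p * h (Pi.single i 1) j * f i := by
    intro j hj
    rw [hh f j (mem_range.1 hj), mul_sum]
    exact sum_congr rfl fun i _ => by ring
  rw [sum_congr rfl h1, sum_comm]
  apply sum_congr rfl
  intro i _
  rw [← sum_mul, hg (h (Pi.single i 1)) p hp]

theorem Lin.id (N : ℕ) : Lin N (fun f => f) := by
  intro f p hp
  rw [sum_eq_single p]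
  · simp
  · intro j _ hj
    simp [hj.symm]
  · intro h
    exact absurd (mem_range.2 hp) h

theorem lin_two {N : ℕ} (q : ℕ → ℕ) (c e : ℕ → ℂ) (hq : ∀ p < N, e p ≠ 0 → q p < N) :
    Lin N (fun f p => c p * f p + e p * f (q p)) := by
  intro f p hp
  simp only [add_mul, sum_add_distrib]
  congr 1
  · rw [sum_eq_single p]
    · simp
    · intro j _ hj
      simp [hj.symm]
    · intro h
      exact absurd (mem_range.2 hp) h
  · by_cases h0 : e p = 0
    · simp [h0]
    · rw [sum_eq_single (q p)]
      · simp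
      · intro j _ hj
        simp [hj.symm]
      · intro h
        exact absurd (mem_range.2 (hq p hp h0)) h

theorem lin_dnv {a t : ℕ} (h : t ≤ a) : Lin (2 ^ (a + 1)) (dnv t) := by
  have h1 := lin_two (N := 2 ^ (a + 1)) (fun p => p + 2 ^ t) (fun _ => 1)
    (fun p => if lo t p then 1 else 0) (fun p hp hpe => by
      have hl : lo t p := by
        by_contra hl
        simp [hl] at hpe
      exact lo_lt hl (by omega) hp)
  have h2 : dnv t = fun f p => (1 : ℂ) * f p + (if lo t p then 1 else 0) * f (p + 2 ^ t) := by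
    funext f p
    unfold dnv
    split_ifs <;> simp
  rw [h2]
  exact h1

theorem lin_upv {a : ℕ} (t : ℕ) : Lin (2 ^ (a + 1)) (upv t) := by
  have h1 := lin_two (N := 2 ^ (a + 1)) (fun p => p - 2 ^ t) (fun _ => 1)
    (fun p => if lo t p then 0 else 1) (fun p hp _ => lt_of_le_of_lt (Nat.sub_le _ _) hp)
  have h2 : upv t = fun f p => (1 : ℂ) * f p + (if lo t p then 0 else 1) * f (p - 2 ^ t) := by
    funext f p
    unfold upv
    split_ifs <;> simp
  rw [h2]
  exact h1

theorem lin_dgv {a : ℕ} (c : ℕ → ℂ) : Lin (2 ^ (a + 1)) (dgv c) := by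
  have h1 := lin_two (N := 2 ^ (a + 1)) (fun p => p) c (fun _ => 0) (fun p hp _ => hp)
  have h2 : dgv c = fun f p => c p * f p + (0 : ℂ) * f p := by
    funext f p
    unfold dgv
    simp
  rw [h2]
  exact h1

theorem lin_ap {a : ℕ} (s : ℕ) {o : Ly} (h : o.ok a) : Lin (2 ^ (a + 1)) (o.ap a s) := by
  cases o with
  | dn t => exact lin_dnv h
  | up t => exact lin_upv t
  | dg c => exact lin_dgv _

theorem lin_run {a : ℕ} (s : ℕ) (l : List Ly) (h : ∀ o ∈ l, o.ok a) :
    Lin (2 ^ (a + 1)) (run a s l) := by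
  induction l with
  | nil => exact Lin.id _
  | cons o l ih =>
    have h1 : run a s (o :: l) = fun f => run a s l (o.ap a s f) := by
      funext f; rfl
    rw [h1]
    exact (ih fun o' ho' => h o' (List.mem_cons_of_mem _ ho')).comp
      (lin_ap s (h o List.mem_cons_self))

/-- The matrix of `g` with respect to a numbering `ν` of the index type. -/
def mat {A : Type*} (ν : A → ℕ) (g : (ℕ → ℂ) → ℕ → ℂ) : Matrix A A ℂ :=
  fun i j => g (Pi.single (ν j) 1) (ν i)

theorem mat_comp {A : Type*} [Fintype A] {N : ℕ} {ν : A → ℕ} (hν : Function.Injective ν)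
    (hr : ∀ p, p < N ↔ ∃ i, ν i = p) {g h : (ℕ → ℂ) → ℕ → ℂ} (hg : Lin N g) :
    mat ν (fun f => g (h f)) = mat ν g * mat ν h := by
  classical
  ext i j
  rw [Matrix.mul_apply]
  unfold mat
  beta_reduce
  rw [hg _ _ ((hr _).2 ⟨i, rfl⟩)]
  have h1 : range N = univ.image ν := by
    ext p
    simp [hr]
  rw [h1, sum_image fun x _ y _ h => hν h]

theorem mat_id {A : Type*} [DecidableEq A] {ν : A → ℕ} (hν : Function.Injective ν) :
    mat ν (fun f => f) = (1 : Matrix A A ℂ) := by
  ext i j
  unfold mat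
  beta_reduce
  rw [Matrix.one_apply, Pi.single_apply]
  simp [hν.eq_iff]

/-- The product of the matrices of a list of layers, the last layer leftmost. -/
theorem mat_run {A : Type*} [Fintype A] [DecidableEq A] {a : ℕ} {ν : A → ℕ}
    (hν : Function.Injective ν) (hr : ∀ p, p < 2 ^ (a + 1) ↔ ∃ i, ν i = p) (s : ℕ)
    (l : List Ly) (h : ∀ o ∈ l, o.ok a) :
    mat ν (run a s l) = (l.reverse.map fun o => mat ν (o.ap a s)).prod := by
  induction l with
  | nil => exact mat_id hν
  | cons o l ih =>
    have h1 : run a s (o :: l) = fun f => run a s l (o.ap a s f) := by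
      funext f; rfl
    have h2 := fun o' ho' => h o' (List.mem_cons_of_mem o ho')
    rw [h1, mat_comp hν hr (lin_run s l h2), ih h2]
    simp

theorem mat_dn {A : Type*} (ν : A → ℕ) (t : ℕ) (i j : A) :
    mat ν (dnv t) i j = (if ν i = ν j then 1 else 0) +
      (if lo t (ν i) ∧ ν i + 2 ^ t = ν j then 1 else 0) := by
  unfold mat dnv
  simp only [Pi.single_apply]
  by_cases h : lo t (ν i) <;> simp [h]

theorem mat_up {A : Type*} (ν : A → ℕ) (t : ℕ) (i j : A) :
    mat ν (upv t) i j = (if ν i = ν j then 1 else 0) +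
      (if ¬ lo t (ν i) ∧ ν i - 2 ^ t = ν j then 1 else 0) := by
  unfold mat upv
  simp only [Pi.single_apply]
  by_cases h : lo t (ν i) <;> simp [h]

theorem mat_dg {A : Type*} [DecidableEq A] {ν : A → ℕ} (hν : Function.Injective ν) (c : ℕ → ℂ) :
    mat ν (dgv c) = Matrix.diagonal fun i => c (ν i) := by
  ext i j
  unfold mat dgv
  rw [Matrix.diagonal_apply, Pi.single_apply]
  simp [hν.eq_iff]

/-- The entries of the product matrix. -/
theorem mat_prog {A : Type*} {ν : A → ℕ} {a s : ℕ} (hs : s % 2 = 1) (hsa : s ≤ 2 ^ a)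
    (i j : A) (ri rj : Bool) {v w : ℕ} (hv : v < 2 ^ a) (hw : w < s)
    (hi : ν i = pos a ri v) (hj : ν j = pos a rj w) :
    mat ν (run a s (prog a)) i j =
      if v < s then
        (if ri = rj then 0 else
          if ri then zt s ((v : ℤ) * w) else -(1 / (s : ℂ)) * zt s (-((v : ℤ) * w)))
      else 0 := by
  unfold mat
  have hwa : w < 2 ^ a := by omega
  have h1 := run_prog (a := a) hs hsa (Pi.single (ν j) 1) (by
    intro u hu hua
    rw [Pi.single_apply, hj]
    rw [if_neg]
    unfold pos
    cases rj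
    · simp; omega
    · simp; omega) v hv
  have hsum : ∀ (r : Bool) (c : ℕ → ℂ),
      ∑ x ∈ range s, c x * (Pi.single (ν j) 1 : ℕ → ℂ) (pos a r x) =
        if r = rj then c w else 0 := by
    intro r c
    rw [sum_eq_single w]
    · rw [Pi.single_apply, hj]
      cases r <;> cases rj <;> simp [pos]
    · intro x hx hxw
      have hx' := mem_range.1 hx
      rw [Pi.single_apply, hj, if_neg, mul_zero]
      cases r <;> cases rj <;> simp [pos] <;> omega
    · intro h
      exact absurd (mem_range.2 hw) h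
  have e1 := hsum true (fun x => zt s (-((v : ℤ) * x)))
  have e2 := hsum false (fun x => zt s ((v : ℤ) * x))
  simp only [pos, if_true, Bool.false_eq_true, if_false] at e1 e2
  rw [e1, e2] at h1
  rw [hi]
  cases ri
  · simp only [pos, Bool.false_eq_true, if_false]
    rw [h1.1]
    cases rj <;> simp
  · simp only [pos, if_true]
    rw [h1.2]
    cases rj <;> simp

end Vale.Agent.P338.R3.H352
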