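import Vale.Agent.P338.R3.H352.Mat
import Vale.Agent.P338.R3.H282.Coord
import Vale.Agent.P338.R3.H955.Pipe

/-!
P338-D: the local program is the padding of the two register kernel `kU` (`twin_prog`).
-/

namespace Vale.Agent.P338.R3.H352

open Complex Finset

theorem ok_lprog (a : ℕ) : ∀ l ∈ lprog a, H282.Ly.ok a l := by
  intro l hl
  unfold lprog at hl
  obtain ⟨o, ho, rfl⟩ := List.mem_map.1 hl
  have := ok_prog a o ho
  cases o with
  | dn t => exact this
  | up t => exact this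
  | dg c => trivial

theorem lmat_toL {a s : ℕ} {lv : Dc → ℕ → ℂ} (o : Ly)
    (hlv : ∀ c, o = .dg c → ∀ p, lv c p = c.val a s p) :
    H282.lmat a lv (toL o) = mat (fun i : Fin (2 ^ (a + 1)) => (i : ℕ)) (o.ap a s) := by
  cases o with
  | dn t =>
    ext i j
    simp only [toL, H282.lmat]
    rw [show (Ly.dn t).ap a s = dnv t from rfl, mat_dn]
    congr 1
    · simp only [Fin.ext_iff, eq_comm]
    · simp only [lo_iff_testBit, eq_comm]
  | up t =>
    ext i j
    simp only [toL, H282.lmat]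
    rw [show (Ly.up t).ap a s = upv t from rfl, mat_up]
    congr 1
    · simp only [Fin.ext_iff, eq_comm]
    · have h1 : (¬ lo t (i : ℕ)) ↔ (i : ℕ).testBit t = true := by
        rw [lo_iff_testBit]
        simp
      simp only [h1, eq_comm]
  | dg c =>
    rw [show (Ly.dg c).ap a s = dgv (c.val a s) from rfl, mat_dg Fin.val_injective]
    simp only [toL, H282.lmat]
    congr 1
    funext p
    exact hlv c rfl p

theorem pmat_lprog {a s : ℕ} {lv : Dc → ℕ → ℂ}
    (hlv : ∀ c, Ly.dg c ∈ prog a → ∀ p, lv c p = c.val a s p) :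
    H282.pmat a lv (lprog a) = mat (fun i : Fin (2 ^ (a + 1)) => (i : ℕ)) (run a s (prog a)) := by
  rw [mat_run Fin.val_injective (fun p => ⟨fun h => ⟨⟨p, h⟩, rfl⟩, fun ⟨i, hi⟩ => hi ▸ i.2⟩) s
    (prog a) (ok_prog a)]
  unfold H282.pmat lprog
  rw [← List.map_reverse, List.map_map]
  congr 1
  apply List.map_congr_left
  intro o ho
  rw [List.mem_reverse] at ho
  exact lmat_toL o fun c hc => hlv c (hc ▸ ho)

theorem std_eq {n : ℕ} [NeZero n] (j : ℤ) : ZMod.stdAddChar ((j : ℤ) : ZMod n) = zt n j := by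
  rw [ZMod.stdAddChar_coe]
  unfold zt
  congr 1
  ring

open H282 in
/-- The local program acts on the padded registers as `(X, Y) ↦ (- F⁻¹ Y, F X)`. -/
theorem twin_prog {G : Geo} [∀ k, NeZero (G.q k)] (hq : ∀ i : Fin G.d, G.q i ≤ 2 ^ G.a)
    {lv : ℕ → Dc → ℕ → ℂ} (i : Fin G.d) (hodd : G.q i % 2 = 1)
    (hlv : ∀ c, Ly.dg c ∈ prog G.a → ∀ p, lv (G.q i) c p = c.val G.a (G.q i) p) :
    Twin (A := fun _ : Fin G.d => Fin (2 ^ (G.a + 1))) (em hq) i
      (pmat G.a (lv (G.q i)) (lprog G.a))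
      (Matrix.of (H955.kU (ZMod.stdAddChar (N := G.q i)) 1 (1 / (G.q i : ℂ)))) := by
  rw [pmat_lprog hlv]
  have hpos : ∀ b : Bool × ZMod (G.q i), ((em hq i b : Fin (2 ^ (G.a + 1))) : ℕ) =
      pos G.a b.1 b.2.val := by
    rintro ⟨ρ, x⟩
    simp only [H282.em, pos]
    cases ρ <;> simp
  have hval : ∀ b : ZMod (G.q i), b.val < G.q i := fun b => ZMod.val_lt b
  have hmul : ∀ x y : ZMod (G.q i), ZMod.stdAddChar (x * y) =
      zt (G.q i) ((x.val : ℤ) * (y.val : ℤ)) := by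
    intro x y
    rw [← std_eq]
    congr 1
    push_cast
    rw [ZMod.natCast_zmod_val, ZMod.natCast_zmod_val]
  have hmul' : ∀ x y : ZMod (G.q i), ZMod.stdAddChar (-(x * y)) =
      zt (G.q i) (-((x.val : ℤ) * (y.val : ℤ))) := by
    intro x y
    rw [← std_eq]
    congr 1
    push_cast
    rw [ZMod.natCast_zmod_val, ZMod.natCast_zmod_val]
  refine ⟨fun b c => ?_, fun p c hp => ?_⟩
  · have h1 := mat_prog (A := Fin (2 ^ (G.a + 1))) (ν := fun i => (i : ℕ)) hodd (hq i)
      (em hq i b) (em hq i c) b.1 c.1 (lt_of_lt_of_le (hval b.2) (hq i)) (hval c.2)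
      (hpos b) (hpos c)
    rw [h1, if_pos (hval b.2)]
    obtain ⟨ρ, x⟩ := b
    obtain ⟨ρ', y⟩ := c
    cases ρ <;> cases ρ'
    · simp [H955.kU]
    · simp only [Matrix.of_apply, H955.kU, hmul']
      simp
    · simp only [Matrix.of_apply, H955.kU, hmul]
      simp
    · simp [H955.kU]
  · rw [mem_range_em, not_lt] at hp
    have hp2 : (p : ℕ) = pos G.a (decide ((p : ℕ) / 2 ^ G.a = 1)) ((p : ℕ) % 2 ^ G.a) := by
      have h5 : (p : ℕ) < 2 ^ (G.a + 1) := p.2
      have h6 : 2 ^ (G.a + 1) = 2 * 2 ^ G.a := by rw [pow_succ]; ring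
      have h7 : (p : ℕ) / 2 ^ G.a < 2 := by
        rw [Nat.div_lt_iff_lt_mul (by positivity)]
        omega
      have h2 := Nat.div_add_mod (p : ℕ) (2 ^ G.a)
      unfold pos
      by_cases h3 : (p : ℕ) / 2 ^ G.a = 1
      · rw [h3, mul_one] at h2
        simp only [h3, decide_true, if_true]
        exact h2.symm
      · have h4 : (p : ℕ) / 2 ^ G.a = 0 :=
          Nat.lt_one_iff.1 (lt_of_le_of_ne (Nat.lt_succ_iff.1 h7) h3)
        rw [h4, mul_zero, zero_add] at h2
        simp only [h3, decide_false, Bool.false_eq_true, if_false]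
        exact h2.symm
    have h1 := mat_prog (A := Fin (2 ^ (G.a + 1))) (ν := fun i => (i : ℕ)) hodd (hq i)
      p (em hq i c) (decide ((p : ℕ) / 2 ^ G.a = 1)) c.1 (Nat.mod_lt _ (by positivity)) (hval c.2)
      hp2 (hpos c)
    rw [h1, if_neg (not_lt.2 hp)]

end Vale.Agent.P338.R3.H352
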