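import Vale.Agent.P338.R3.H352.Dft

/-!
P338-D, module DFT, final form: `run_prog`, `length_prog`, `norm_val`.
-/

namespace Vale.Agent.P338.R3.H352

open Complex Finset

/-- THE TRANSFORM OF ONE DIGIT. Positions `v` (register `0`) and `2 ^ a + v` (register `1`). -/
theorem run_prog {a s : ℕ} (hs : s % 2 = 1) (hsa : s ≤ 2 ^ a) (f : ℕ → ℂ)
    (h0 : ∀ v, s ≤ v → v < 2 ^ a → f v = 0) (v : ℕ) (hv : v < 2 ^ a) :
    run a s (prog a) f v =
      (if v < s then -(1 / (s : ℂ)) * ∑ x ∈ range s, zt s (-((v : ℤ) * x)) * f (2 ^ a + x) else 0) ∧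
    run a s (prog a) f (2 ^ a + v) =
      (if v < s then ∑ x ∈ range s, zt s ((v : ℤ) * x) * f x else 0) := by
  have h : St a f f (fun v => f (2 ^ a + v)) := ⟨fun _ _ => rfl, fun _ _ => rfl⟩
  have h1 := h.prog hs hsa h0
  constructor
  · rw [h1.lo v hv]
    simp only [dft]
    split_ifs with hvs
    · congr 1
      exact sum_congr rfl fun j _ => by rw [neg_one_mul]
    · rfl
  · rw [h1.hi v hv]
    simp only [dft]
    split_ifs with hvs
    · exact sum_congr rfl fun j _ => by rw [one_mul]
    · rfl

theorem length_gL (r : ℕ) : (gL r).length = 4 * r := by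
  induction r with
  | zero => rfl
  | succ r ih => simp only [gL, List.length_append, ih, List.length_cons, List.length_nil]; ring

theorem length_giL (r : ℕ) : (giL r).length = 4 * r := by
  induction r with
  | zero => rfl
  | succ r ih => simp only [giL, List.length_append, ih, List.length_cons, List.length_nil]; ring

theorem length_prog (a : ℕ) : (prog a).length = 48 * a + 30 := by
  simp only [prog, blk, half, List.length_append, length_gL, length_giL, List.length_cons,
    List.length_nil]
  ring

/-- All layers act on the bits `0, …, a`. -/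
def Ly.ok (a : ℕ) : Ly → Prop
  | .dn t => t ≤ a
  | .up t => t ≤ a
  | .dg _ => True

theorem ok_gL (a r : ℕ) (h : r ≤ a) : ∀ o ∈ gL r, o.ok a := by
  induction r with
  | zero => intro o ho; simp [gL] at ho
  | succ r ih =>
    intro o ho
    simp only [gL, List.mem_append, List.mem_cons, List.not_mem_nil, or_false] at ho
    rcases ho with (rfl | rfl | rfl | rfl) | ho
    · exact (by omega : r ≤ a)
    · trivial
    · exact (by omega : r ≤ a)
    · trivial
    · exact ih (by omega) o ho

theorem ok_giL (a r : ℕ) (h : r ≤ a) : ∀ o ∈ giL r, o.ok a := by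
  induction r with
  | zero => intro o ho; simp [giL] at ho
  | succ r ih =>
    intro o ho
    simp only [giL, List.mem_append, List.mem_cons, List.not_mem_nil, or_false] at ho
    rcases ho with ho | (rfl | rfl | rfl | rfl)
    · exact ih (by omega) o ho
    · trivial
    · exact (by omega : r ≤ a)
    · trivial
    · exact (by omega : r ≤ a)

theorem ok_half (a : ℕ) (w sg : Bool) : ∀ o ∈ half a w sg, o.ok a := by
  intro o ho
  simp only [half, List.mem_append, List.mem_cons, List.not_mem_nil, or_false] at ho
  rcases ho with ho | (rfl | rfl | rfl) | ho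
  · exact ok_gL a a le_rfl o ho
  · trivial
  · cases w
    · exact le_refl a
    · exact le_refl a
  · trivial
  · exact ok_giL a a le_rfl o ho

theorem ok_blk (a : ℕ) (w : Bool) : ∀ o ∈ blk a w, o.ok a := by
  intro o ho
  simp only [blk, List.mem_append, List.mem_cons, List.not_mem_nil, or_false] at ho
  rcases ho with rfl | ho | rfl | ho | rfl | rfl
  · trivial
  · exact ok_half a w false o ho
  · trivial
  · exact ok_half a w true o ho
  · trivial
  · trivial

theorem ok_prog (a : ℕ) : ∀ o ∈ prog a, o.ok a := by
  intro o ho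
  simp only [prog, List.mem_append] at ho
  rcases ho with ho | ho | ho
  · exact ok_blk a false o ho
  · exact ok_blk a true o ho
  · exact ok_blk a false o ho

/-- All entries of all diagonals are at most `3 * 2 ^ a`. -/
theorem norm_val {a s : ℕ} (hs : 0 < s) (c : Dc) (p : ℕ) : ‖c.val a s p‖ ≤ 3 * 2 ^ a := by
  have h1 : (1 : ℝ) ≤ 2 ^ a := one_le_pow₀ (by norm_num)
  cases c with
  | bA t =>
    simp only [Dc.val, gA]
    split_ifs
    · rw [norm_one]; linarith
    · rw [norm_neg, Complex.norm_ofNat]; linarith
  | bB t =>
    simp only [Dc.val, gB]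
    split_ifs
    · rw [norm_one]; linarith
    · rw [norm_zt]; linarith
  | bC t =>
    simp only [Dc.val, gB']
    split_ifs
    · rw [norm_div, norm_one, Complex.norm_ofNat]; linarith
    · rw [norm_div, norm_zt, Complex.norm_ofNat]; linarith
  | psi neg =>
    simp only [Dc.val]
    rw [norm_zt]; linarith
  | pre w =>
    simp only [Dc.val, chp, chi]
    split_ifs
    · rw [norm_zt]; linarith
    · rw [norm_zt]; linarith
  | post w =>
    simp only [Dc.val, chp, chi]
    split_ifs
    · rw [norm_zt]; linarith
    · rw [norm_zt]; linarith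
    · rw [norm_zero]; linarith
  | mul w sg =>
    simp only [Dc.val]
    split_ifs
    · exact norm_lam_le hs a w sg _
    · rw [norm_one]; linarith
  | div w sg =>
    simp only [Dc.val]
    split_ifs
    · rw [norm_inv]
      have h2 := le_norm_lam hs a w sg (p % 2 ^ a)
      have h3 : ‖lam a s w sg (p % 2 ^ a)‖⁻¹ ≤ 1 := inv_le_one_of_one_le₀ (by linarith)
      linarith
    · rw [norm_one]; linarith

end Vale.Agent.P338.R3.H352
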