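import Vale.Agent.P338.R3.H352.St

/-!
P338-D: circulant transfers between the two registers.
-/

namespace Vale.Agent.P338.R3.H352

open Complex Finset

/-- The eigenvalues of a circulant of order `2 ^ a`, in bit reversed order. -/
noncomputable def lamc (a : ℕ) (c : ℕ → ℂ) (v : ℕ) : ℂ :=
  ∑ d ∈ range (2 ^ a), c d * zt (2 ^ a) (-(d * fr a v : ℕ))

/-- The product of a circulant with a vector. -/
noncomputable def circ (a : ℕ) (c x : ℕ → ℂ) (k : ℕ) : ℂ :=
  ∑ j ∈ range (2 ^ a), c ((k + (2 ^ a - j)) % 2 ^ a) * x j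

theorem mod_rot {R j k : ℕ} (hj : j < R) (hk : k < R) : ((k + (R - j)) % R + j) % R = k := by
  rw [Nat.mod_add_mod, show k + (R - j) + j = k + R by omega, Nat.add_mod_right,
    Nat.mod_eq_of_lt hk]

theorem mod_rot' {R j d : ℕ} (hj : j < R) (hd : d < R) : ((d + j) % R + (R - j)) % R = d := by
  rw [Nat.mod_add_mod, show d + j + (R - j) = d + R by omega, Nat.add_mod_right,
    Nat.mod_eq_of_lt hd]

theorem sum_rot {R : ℕ} (hR : 0 < R) (c : ℕ → ℂ) (w j : ℕ) (hj : j < R) :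
    ∑ k ∈ range R, c ((k + (R - j)) % R) * zt R (-(k * w : ℕ)) =
      (∑ d ∈ range R, c d * zt R (-(d * w : ℕ))) * zt R (-(j * w : ℕ)) := by
  rw [sum_mul]
  refine Finset.sum_nbij' (fun k => (k + (R - j)) % R) (fun d => (d + j) % R) ?_ ?_ ?_ ?_ ?_
  · intro k _
    exact mem_range.2 (Nat.mod_lt _ hR)
  · intro d _
    exact mem_range.2 (Nat.mod_lt _ hR)
  · intro k hk
    exact mod_rot hj (mem_range.1 hk)
  · intro d hd
    exact mod_rot' hj (mem_range.1 hd)
  · intro k hk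
    rw [mul_assoc, ← zt_add]
    congr 1
    apply zt_congr hR
    have h1 := mod_rot hj (mem_range.1 hk)
    have h2 : (((k + (R - j)) % R + j : ℕ) : ℤ) ≡ (k : ℤ) [ZMOD R] := by
      rw [Int.ModEq, ← Int.natCast_mod, h1]
      exact (Int.emod_eq_of_lt (by omega) (by exact_mod_cast mem_range.1 hk)).symm
    have h3 : ((((k + (R - j)) % R + j : ℕ) : ℤ) * (-(w : ℤ))) ≡ ((k : ℤ) * (-(w : ℤ))) [ZMOD R] :=
      h2.mul_right _
    have e1 : (-((((k + (R - j)) % R) * w : ℕ) : ℤ)) + (-((j * w : ℕ) : ℤ)) =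
        ((((k + (R - j)) % R + j : ℕ) : ℤ) * (-(w : ℤ))) := by
      push_cast
      ring
    have e2 : (-((k * w : ℕ) : ℤ)) = ((k : ℤ) * (-(w : ℤ))) := by
      push_cast
      ring
    rw [e1, e2]
    exact h3.symm

theorem G_circ (a : ℕ) (c x y : ℕ → ℂ) (v : ℕ) (hv : v < 2 ^ a) :
    G a (fun k => y k + circ a c x k) v = G a y v + lamc a c v * G a x v := by
  rw [G_eq _ _ _ hv, G_eq _ _ _ hv, G_eq _ _ _ hv]
  have h1 : ∀ k ∈ range (2 ^ a), (y k + circ a c x k) * zt (2 ^ a) (-(k * fr a v : ℕ)) =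
      y k * zt (2 ^ a) (-(k * fr a v : ℕ)) +
        ∑ j ∈ range (2 ^ a), x j * (c ((k + (2 ^ a - j)) % 2 ^ a) *
          zt (2 ^ a) (-(k * fr a v : ℕ))) := by
    intro k _
    rw [add_mul]
    congr 1
    unfold circ
    rw [sum_mul]
    exact sum_congr rfl fun j _ => by ring
  rw [sum_congr rfl h1, sum_add_distrib, sum_comm]
  congr 1
  have h2 : ∀ j ∈ range (2 ^ a), ∑ k ∈ range (2 ^ a), x j * (c ((k + (2 ^ a - j)) % 2 ^ a) *
      zt (2 ^ a) (-(k * fr a v : ℕ))) = lamc a c v * (x j * zt (2 ^ a) (-(j * fr a v : ℕ))) := by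
    intro j hj
    rw [← mul_sum, sum_rot (by positivity) c (fr a v) j (mem_range.1 hj)]
    unfold lamc
    ring
  rw [sum_congr rfl h2, ← mul_sum]

theorem St.circ0 {a : ℕ} {f x y : ℕ → ℂ} (c : ℕ → ℂ)
    (h : St a f (H352.G a x) (fun v => H352.G a y v + lamc a c v * H352.G a x v)) :
    St a (H352.Gi a f) x (fun k => y k + circ a c x k) := by
  have h1 : St a f (H352.G a x) (H352.G a (fun k => y k + circ a c x k)) :=
    h.cast (fun _ _ => rfl) (fun v hv => (G_circ a c x y v hv).symm)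
  have h2 := h1.Gi
  rw [Gi_G, Gi_G] at h2
  exact h2

theorem St.circ1 {a : ℕ} {f x y : ℕ → ℂ} (c : ℕ → ℂ)
    (h : St a f (fun v => H352.G a x v + lamc a c v * H352.G a y v) (H352.G a y)) :
    St a (H352.Gi a f) (fun k => x k + circ a c y k) y := by
  have h1 : St a f (H352.G a (fun k => x k + circ a c y k)) (H352.G a y) :=
    h.cast (fun v hv => (G_circ a c y x v hv).symm) (fun _ _ => rfl)
  have h2 := h1.Gi
  rw [Gi_G, Gi_G] at h2
  exact h2

end Vale.Agent.P338.R3.H352
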