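import Vale.Agent.P338.R3.H352.Prog

/-!
P338-D: the in-place transform of order `s` on two registers of `2 ^ a` cells, the theorem
`run_prog`: `(x, y) ↦ (- F⁻¹ y, F x)`.
-/

namespace Vale.Agent.P338.R3.H352

open Complex Finset

theorem norm_fac {s : ℕ} (hs : 0 < s) (w : Bool) : ‖fac s w‖ ≤ 1 := by
  unfold fac
  cases w
  · simp
  · simp only [if_true, norm_neg, norm_div, norm_one, Complex.norm_natCast]
    rw [div_le_one (by exact_mod_cast hs)]
    exact_mod_cast hs

theorem norm_tau {s : ℕ} (hs : 0 < s) (w : Bool) (d : ℤ) : ‖tau s w d‖ ≤ 1 := by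
  unfold tau chi
  rw [norm_mul, norm_zt, mul_one]
  exact norm_fac hs w

theorem norm_tsym {s : ℕ} (hs : 0 < s) (a : ℕ) (w sg : Bool) (d : ℕ) :
    ‖tsym a (tau s w) sg d‖ ≤ 1 := by
  have h1 := norm_tau hs w (d : ℤ)
  have h2 := norm_tau hs w ((d : ℤ) - 2 ^ a)
  unfold tsym
  cases sg
  · simp only [Bool.false_eq_true, if_false, norm_div, Complex.norm_ofNat]
    have := norm_add_le (tau s w (d : ℤ)) (tau s w ((d : ℤ) - 2 ^ a))
    linarith
  · simp only [if_true, norm_mul, norm_div, Complex.norm_ofNat, norm_zt, mul_one]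
    have := norm_sub_le (tau s w (d : ℤ)) (tau s w ((d : ℤ) - 2 ^ a))
    linarith

theorem lam_eq (a s : ℕ) (w sg : Bool) (v : ℕ) :
    lam a s w sg v = lamc a (tsym a (tau s w) sg) v +
      (if sg then -(2 : ℂ) ^ (a + 1) else (2 : ℂ) ^ (a + 1)) := by
  unfold lam lamc tsy
  simp only [add_mul, sum_add_distrib]
  congr 1
  rw [sum_eq_single 0]
  · simp [zt_zero]
  · intro d _ hd
    simp [hd]
  · intro h
    exact absurd (mem_range.2 (by positivity)) h

theorem norm_lamc {s : ℕ} (hs : 0 < s) (a : ℕ) (w sg : Bool) (v : ℕ) :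
    ‖lamc a (tsym a (tau s w) sg) v‖ ≤ 2 ^ a := by
  unfold lamc
  calc ‖∑ d ∈ range (2 ^ a), tsym a (tau s w) sg d * zt (2 ^ a) (-(d * fr a v : ℕ))‖
      ≤ ∑ d ∈ range (2 ^ a), ‖tsym a (tau s w) sg d * zt (2 ^ a) (-(d * fr a v : ℕ))‖ :=
        norm_sum_le _ _
    _ ≤ ∑ d ∈ range (2 ^ a), (1 : ℝ) := by
        apply sum_le_sum
        intro d _
        rw [norm_mul, norm_zt, mul_one]
        exact norm_tsym hs a w sg d
    _ = 2 ^ a := by simp

theorem norm_off (a : ℕ) (sg : Bool) :
    ‖(if sg then -(2 : ℂ) ^ (a + 1) else (2 : ℂ) ^ (a + 1))‖ = 2 * 2 ^ a := by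
  cases sg <;> simp [pow_succ, mul_comm]

/-- The eigenvalues are large. -/
theorem le_norm_lam {s : ℕ} (hs : 0 < s) (a : ℕ) (w sg : Bool) (v : ℕ) :
    2 ^ a ≤ ‖lam a s w sg v‖ := by
  rw [lam_eq]
  have h1 := norm_lamc hs a w sg v
  have h2 := norm_off a sg
  have h3 := norm_sub_le (lamc a (tsym a (tau s w) sg) v +
    (if sg then -(2 : ℂ) ^ (a + 1) else (2 : ℂ) ^ (a + 1))) (lamc a (tsym a (tau s w) sg) v)
  rw [add_sub_cancel_left] at h3
  linarith

/-- The eigenvalues are bounded. -/
theorem norm_lam_le {s : ℕ} (hs : 0 < s) (a : ℕ) (w sg : Bool) (v : ℕ) :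
    ‖lam a s w sg v‖ ≤ 3 * 2 ^ a := by
  rw [lam_eq]
  have h1 := norm_lamc hs a w sg v
  have h2 := norm_off a sg
  have h3 := norm_add_le (lamc a (tsym a (tau s w) sg) v)
    (if sg then -(2 : ℂ) ^ (a + 1) else (2 : ℂ) ^ (a + 1))
  linarith

theorem lam_ne {s : ℕ} (hs : 0 < s) (a : ℕ) (w sg : Bool) (v : ℕ) : lam a s w sg v ≠ 0 := by
  intro h
  have := le_norm_lam hs a w sg v
  rw [h, norm_zero] at this
  have h2 : (0 : ℝ) < 2 ^ a := by positivity
  linarith

theorem bne_self (w : Bool) : ((!w) = w) = False := by cases w <;> simp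

theorem Sw.half {w sg : Bool} {a s : ℕ} {f z u : ℕ → ℂ} (hs : 0 < s) (h : Sw w a f z u) :
    Sw w a (run a s (H352.half a w sg) f) z
      (fun k => u k + H352.circ a (tsy a (tau s w) (2 ^ (a + 1)) sg) z k) := by
  unfold H352.half
  rw [run_append, run_gL, run_append, run_giL, run_cons, run_cons, run_cons, run_nil]
  apply Sw.circ
  have h1 := ((h.G.dg ((Dc.mul w sg).val a s)).zr s).dg ((Dc.div w sg).val a s)
  refine h1.cast ?_ ?_
  · intro v hv
    simp only [Dc.val]
    rw [rb_pos w hv, mod_pos w hv]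
    simp only [if_true]
    rw [← mul_assoc, inv_mul_cancel₀ (lam_ne hs a w sg v), one_mul]
  · intro v hv
    simp only [Dc.val]
    rw [rb_pos w hv, mod_pos w hv, rb_pos (!w) hv]
    simp only [bne_self, if_true, if_false]
    rw [one_mul, one_mul]
    rfl

/-- The transfer by the transform of order `s`. -/
theorem Sw.blk {w : Bool} {a s : ℕ} {f z u : ℕ → ℂ} (hs : s % 2 = 1) (hsa : s ≤ 2 ^ a)
    (h : Sw w a f z u) (hz : ∀ v, s ≤ v → v < 2 ^ a → z v = 0) :
    Sw w a (run a s (H352.blk a w) f) z
      (fun k => if k < s then u k + fac s w * dft s (sgw w) z k else 0) := by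
  unfold H352.blk
  simp only [run_append, run_cons, run_nil]
  have h0 : 0 < s := by omega
  have h1 := h.dg ((Dc.pre w).val a s)
  have h2 := h1.half (sg := false) h0
  have h3 := h2.dg ((Dc.psi false).val a s)
  have h4 := h3.half (sg := true) h0
  have h5 := (h4.dg ((Dc.psi true).val a s)).dg ((Dc.post w).val a s)
  have epre : ∀ v < 2 ^ a, (Dc.pre w).val a s (pos a w v) = chp s w v := by
    intro v hv
    simp only [Dc.val]
    rw [rb_pos w hv, mod_pos w hv]
    simp
  have epre' : ∀ v < 2 ^ a, (Dc.pre w).val a s (pos a (!w) v) = chi s w v := by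
    intro v hv
    simp only [Dc.val]
    rw [rb_pos (!w) hv, mod_pos (!w) hv]
    simp only [bne_self, if_false]
  have epsi : ∀ b, ∀ v < 2 ^ a, (Dc.psi false).val a s (pos a b v) = zt (2 ^ (a + 1)) v := by
    intro b v hv
    simp only [Dc.val]
    rw [mod_pos b hv]
    simp
  have epsi' : ∀ b, ∀ v < 2 ^ a, (Dc.psi true).val a s (pos a b v) =
      zt (2 ^ (a + 1)) (-(v : ℤ)) := by
    intro b v hv
    simp only [Dc.val]
    rw [mod_pos b hv]
    simp
  have epost : ∀ v < 2 ^ a, (Dc.post w).val a s (pos a w v) = chi s w v := by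
    intro v hv
    simp only [Dc.val]
    rw [rb_pos w hv, mod_pos w hv]
    simp
  have epost' : ∀ v < 2 ^ a, (Dc.post w).val a s (pos a (!w) v) =
      if v < s then chp s w v else 0 := by
    intro v hv
    simp only [Dc.val]
    rw [rb_pos (!w) hv, mod_pos (!w) hv]
    simp only [bne_self, if_false]
  have hci : ∀ d : ℤ, chi s w d * chp s w d = 1 := by
    intro d
    unfold chi chp
    exact zt_neg_mul _ _
  refine h5.cast ?_ ?_
  · intro v hv
    rw [epost v hv, epsi' w v hv, epsi w v hv, epre v hv]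
    have e1 := zt_neg_mul (2 ^ (a + 1)) (v : ℤ)
    linear_combination (chi s w v * chp s w v * z v) * e1 + (z v) * hci v
  · intro k hk
    rw [epost' k hk, epsi' (!w) k hk, epsi (!w) k hk, epre' k hk]
    split_ifs with hks
    · have e1 := zt_neg_mul (2 ^ (a + 1)) (k : ℤ)
      -- the symbols
      have ht := toep_eq' a (tau s w) (2 ^ (a + 1))
        (fun v => (Dc.pre w).val a s (pos a w v) * z v) k hk
      have hcc : H352.circ a (tsy a (tau s w) (2 ^ (a + 1)) true)
          (fun v => (Dc.psi false).val a s (pos a w v) *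
            ((Dc.pre w).val a s (pos a w v) * z v)) k =
          H352.circ a (tsy a (tau s w) (2 ^ (a + 1)) true)
          (fun j => zt (2 ^ (a + 1)) j * ((Dc.pre w).val a s (pos a w j) * z j)) k := by
        unfold H352.circ
        apply sum_congr rfl
        intro j hj
        beta_reduce
        rw [epsi w j (mem_range.1 hj)]
      rw [hcc]
      have hsum : ∑ j ∈ range (2 ^ a), tau s w ((k : ℤ) - j) *
          ((Dc.pre w).val a s (pos a w j) * z j) =
          chi s w k * (fac s w * dft s (sgw w) z k) := by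
        have hsub : range s ⊆ range (2 ^ a) := range_subset_range.2 hsa
        rw [← sum_subset hsub]
        · unfold dft
          rw [mul_sum, mul_sum]
          apply sum_congr rfl
          intro j hj
          have hj' := mem_range.1 hj
          rw [epre j (by omega)]
          have hch := chirp hs (sgw w) (k : ℤ) (j : ℤ)
          unfold tau
          have e2 : chp s w k * (chi s w ((k : ℤ) - j) * chp s w j) =
              zt s (sgw w * ((k : ℤ) * j)) := hch
          rw [← e2]
          linear_combination (-(fac s w * chi s w ((k : ℤ) - j) * chp s w j * z j)) * hci k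
        · intro j hj hj'
          rw [hz j (by simpa using hj') (mem_range.1 hj)]
          simp
      rw [hsum] at ht
      set P := H352.circ a (tsy a (tau s w) (2 ^ (a + 1)) false)
        (fun v => (Dc.pre w).val a s (pos a w v) * z v) k
      set Q := H352.circ a (tsy a (tau s w) (2 ^ (a + 1)) true)
        (fun j => zt (2 ^ (a + 1)) j * ((Dc.pre w).val a s (pos a w j) * z j)) k
      have hk1 := hci k
      linear_combination (chp s w k) * ht +
        (chp s w k * (chi s w k * u k + P)) * e1 + (u k + fac s w * dft s (sgw w) z k) * hk1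
    · ring

/-- The theorem: `(x, y) ↦ (- F⁻¹ y, F x)`. -/
theorem St.prog {a s : ℕ} {f x y : ℕ → ℂ} (hs : s % 2 = 1) (hsa : s ≤ 2 ^ a)
    (h : St a f x y) (hx : ∀ v, s ≤ v → v < 2 ^ a → x v = 0) :
    St a (run a s (H352.prog a) f)
      (fun k => if k < s then -(1 / (s : ℂ)) * dft s (-1) y k else 0)
      (fun k => if k < s then dft s 1 x k else 0) := by
  unfold H352.prog
  rw [run_append, run_append]
  have hs0 : (s : ℂ) ≠ 0 := by
    have : s ≠ 0 := by omega
    exact_mod_cast this
  have hl : ∀ σ : ℤ, ∀ (p q : ℕ → ℂ) (c : ℂ) (k : ℕ),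
      dft s σ (fun k => if k < s then p k + c * q k else 0) k = dft s σ p k + c * dft s σ q k := by
    intro σ p q c k
    unfold dft
    rw [mul_sum, ← sum_add_distrib]
    apply sum_congr rfl
    intro j hj
    beta_reduce
    rw [if_pos (mem_range.1 hj)]
    ring
  have h1 := ((Sw.mk_false h).blk hs hsa hx).of_false
  have h2 := ((Sw.mk_true h1).blk hs hsa (fun v hv _ => if_neg (by omega))).of_true
  have e2 : ∀ k, k < s → x k + fac s true * dft s (sgw true)
      (fun k => if k < s then y k + fac s false * dft s (sgw false) x k else 0) k =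
      -(1 / (s : ℂ)) * dft s (-1) y k := by
    intro k hk
    rw [hl]
    have e3 := dft_inv (s := s) (by omega) (Or.inl rfl : (1 : ℤ) = 1 ∨ (1 : ℤ) = -1) x k hk
    simp only [sgw, fac, if_true, Bool.false_eq_true, if_false]
    rw [one_mul, e3]
    field_simp
    ring
  have h3 : St a (run a s (H352.blk a true) (run a s (H352.blk a false) f))
      (fun k => if k < s then -(1 / (s : ℂ)) * dft s (-1) y k else 0)
      (fun k => if k < s then y k + fac s false * dft s (sgw false) x k else 0) := by
    refine h2.cast ?_ (fun _ _ => rfl)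
    intro k _
    by_cases hk : k < s
    · simp only [hk, if_true]
      exact e2 k hk
    · simp only [hk, if_false]
  have h4 := ((Sw.mk_false h3).blk hs hsa (fun v hv _ => if_neg (by omega))).of_false
  refine h4.cast (fun _ _ => rfl) ?_
  intro k _
  by_cases hk : k < s
  · simp only [hk, if_true]
    have e4 := dft_inv (s := s) (by omega) (Or.inr rfl : (-1 : ℤ) = 1 ∨ (-1 : ℤ) = -1) y k hk
    have e5 : dft s (sgw false) (fun k => if k < s then -(1 / (s : ℂ)) * dft s (-1) y k else 0) k =
        -(1 / (s : ℂ)) * dft s 1 (dft s (-1) y) k := by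
      unfold dft
      rw [mul_sum]
      apply sum_congr rfl
      intro j hj
      beta_reduce
      rw [if_pos (mem_range.1 hj)]
      simp only [sgw, Bool.false_eq_true, if_false]
      ring
    rw [e5]
    simp only [sgw, fac, Bool.false_eq_true, if_false]
    rw [neg_neg] at e4
    rw [e4]
    field_simp
    ring
  · simp only [hk, if_false]

end Vale.Agent.P338.R3.H352
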