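import Vale.Agent.P338.R3.H352.Zt

/-!
P338-D: the in-place radix two Fourier transform as a composition of layers, on functions
`ℕ → ℂ`. No permutation: the output is in bit reversed order (`fr`).
-/

namespace Vale.Agent.P338.R3.H352

open Complex Finset

/-- The index is in the lower half of its block of length `2 ^ (t + 1)`. -/
def lo (t v : ℕ) : Prop := v % 2 ^ (t + 1) < 2 ^ t

instance (t v : ℕ) : Decidable (lo t v) := by unfold lo; infer_instance

/-- Layer: lower += upper. -/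
noncomputable def dnv (t : ℕ) (x : ℕ → ℂ) (v : ℕ) : ℂ := if lo t v then x v + x (v + 2 ^ t) else x v

/-- Layer: upper += lower. -/
noncomputable def upv (t : ℕ) (x : ℕ → ℂ) (v : ℕ) : ℂ := if lo t v then x v else x v + x (v - 2 ^ t)

/-- Pointwise multiplication. -/
noncomputable def dgv (g : ℕ → ℂ) (x : ℕ → ℂ) (v : ℕ) : ℂ := g v * x v

/-- The constant of the first diagonal of a butterfly. -/
noncomputable def gA (t v : ℕ) : ℂ := if lo t v then 1 else -2

/-- The twiddle factors. -/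
noncomputable def gB (t v : ℕ) : ℂ := if lo t v then 1 else zt (2 ^ (t + 1)) (-((v % 2 ^ t : ℕ) : ℤ))

/-- The inverse twiddle factors, with the factor `1 / 2` of the inverse butterfly. -/
noncomputable def gB' (t v : ℕ) : ℂ :=
  if lo t v then 1 / 2 else zt (2 ^ (t + 1)) ((v % 2 ^ t : ℕ) : ℤ) / 2

theorem lo_iff (t v : ℕ) : lo t v ↔ v / 2 ^ t % 2 = 0 := by
  unfold lo
  rw [pow_succ, Nat.mod_mul]
  have h : v % 2 ^ t < 2 ^ t := Nat.mod_lt _ (by positivity)
  constructor
  · intro h1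
    by_contra h2
    have : 1 ≤ v / 2 ^ t % 2 := by omega
    have := Nat.mul_le_mul_left (2 ^ t) this
    omega
  · intro h1
    rw [h1]
    simpa using h

theorem lo_add {t v : ℕ} (h : lo t v) : ¬ lo t (v + 2 ^ t) := by
  rw [lo_iff] at *
  rw [Nat.add_div_right _ (by positivity)]
  omega

theorem not_lo_ge {t v : ℕ} (h : ¬ lo t v) : 2 ^ t ≤ v := by
  unfold lo at h
  have := Nat.mod_le v (2 ^ (t + 1))
  omega

theorem not_lo_sub {t v : ℕ} (h : ¬ lo t v) : lo t (v - 2 ^ t) := by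
  have h1 := not_lo_ge h
  obtain ⟨u, rfl⟩ := Nat.exists_eq_add_of_le' h1
  simp only [Nat.add_sub_cancel]
  rw [lo_iff] at *
  rw [Nat.add_div_right _ (by positivity)] at h
  omega

theorem lo_add_block {t r v : ℕ} (h : t < r) : lo t (2 ^ r + v) ↔ lo t v := by
  unfold lo
  have : 2 ^ (t + 1) ∣ 2 ^ r := pow_dvd_pow 2 (by omega)
  rw [Nat.add_mod, Nat.mod_eq_zero_of_dvd this]
  simp

theorem lo_top {r v : ℕ} (h : v < 2 ^ (r + 1)) : lo r v ↔ v < 2 ^ r := by
  unfold lo
  rw [Nat.mod_eq_of_lt h]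

/-- In the lower half of a block, the partner is inside `[0, 2 ^ r)`. -/
theorem lo_lt {t r v : ℕ} (h : lo t v) (htr : t < r) (hv : v < 2 ^ r) : v + 2 ^ t < 2 ^ r := by
  rw [lo_iff] at h
  have h2 : 2 ^ r = 2 ^ t * (2 * 2 ^ (r - t - 1)) := by
    rw [← mul_assoc, ← pow_succ, ← pow_add]
    congr 1
    omega
  have h3 : v / 2 ^ t < 2 * 2 ^ (r - t - 1) := by
    rw [Nat.div_lt_iff_lt_mul (by positivity), mul_comm]
    rw [← h2]
    exact hv
  have h4 : v / 2 ^ t + 1 < 2 * 2 ^ (r - t - 1) := by omega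
  have h5 : v < 2 ^ t * (v / 2 ^ t + 1) := by
    rw [mul_add, mul_one]
    exact Nat.lt_mul_div_succ v (by positivity)
  calc v + 2 ^ t < 2 ^ t * (v / 2 ^ t + 1) + 2 ^ t := by omega
    _ = 2 ^ t * (v / 2 ^ t + 1 + 1) := by ring
    _ ≤ 2 ^ t * (2 * 2 ^ (r - t - 1)) := Nat.mul_le_mul_left _ (by omega)
    _ = 2 ^ r := h2.symm

/-- One butterfly layer. -/
noncomputable def layer (t : ℕ) (x : ℕ → ℂ) : ℕ → ℂ :=
  dgv (gB t) (upv t (dgv (gA t) (dnv t x)))

theorem layer_lo {t v : ℕ} (x : ℕ → ℂ) (h : lo t v) : layer t x v = x v + x (v + 2 ^ t) := by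
  simp [layer, dgv, upv, dnv, gA, gB, h]

theorem layer_hi {t v : ℕ} (x : ℕ → ℂ) (h : ¬ lo t v) :
    layer t x v = zt (2 ^ (t + 1)) (-((v % 2 ^ t : ℕ) : ℤ)) * (x (v - 2 ^ t) - x v) := by
  have h1 := not_lo_sub h
  have h2 := not_lo_ge h
  simp only [layer, dgv, upv, dnv, gA, gB, h, h1, if_true, if_false]
  rw [Nat.sub_add_cancel h2]
  ring

/-- The inverse of a butterfly layer. -/
noncomputable def layer' (t : ℕ) (x : ℕ → ℂ) : ℕ → ℂ :=
  upv t (dgv (gA t) (dnv t (dgv (gB' t) x)))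

theorem bf_lo {t v : ℕ} (x : ℕ → ℂ) (h : lo t v) :
    upv t (dgv (gA t) (dnv t x)) v = x v + x (v + 2 ^ t) := by
  simp [dgv, upv, dnv, gA, h]

theorem bf_hi {t v : ℕ} (x : ℕ → ℂ) (h : ¬ lo t v) :
    upv t (dgv (gA t) (dnv t x)) v = x (v - 2 ^ t) - x v := by
  have h1 := not_lo_sub h
  have h2 := not_lo_ge h
  simp only [dgv, upv, dnv, gA, h, h1, if_true, if_false]
  rw [Nat.sub_add_cancel h2]
  ring

theorem layer'_layer (t : ℕ) (x : ℕ → ℂ) : layer' t (layer t x) = x := by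
  funext v
  have key : ∀ u, lo t u → dgv (gB' t) (layer t x) u = (x u + x (u + 2 ^ t)) / 2 ∧
      dgv (gB' t) (layer t x) (u + 2 ^ t) = (x u - x (u + 2 ^ t)) / 2 := by
    intro u hu
    constructor
    · simp only [dgv, gB', hu, if_true]
      rw [layer_lo _ hu]
      ring
    · have hu' := lo_add hu
      simp only [dgv, gB', hu', if_false]
      rw [layer_hi _ hu', Nat.add_sub_cancel]
      have h1 := zt_mul_neg (2 ^ (t + 1)) (((u + 2 ^ t) % 2 ^ t : ℕ) : ℤ)
      linear_combination ((x u - x (u + 2 ^ t)) / 2) * h1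
  unfold layer'
  by_cases h : lo t v
  · rw [bf_lo _ h]
    obtain ⟨h1, h2⟩ := key v h
    rw [h1, h2]
    ring
  · rw [bf_hi _ h]
    have h0 := not_lo_sub h
    obtain ⟨h1, h2⟩ := key _ h0
    rw [Nat.sub_add_cancel (not_lo_ge h)] at h1 h2
    rw [h1, h2]
    ring

/-- The transform: layers `r - 1, …, 0`. -/
noncomputable def G : ℕ → (ℕ → ℂ) → ℕ → ℂ
  | 0, x => x
  | r + 1, x => G r (layer r x)

/-- The inverse of the transform. -/
noncomputable def Gi : ℕ → (ℕ → ℂ) → ℕ → ℂ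
  | 0, x => x
  | r + 1, x => layer' r (Gi r x)

theorem Gi_G (r : ℕ) : ∀ x, Gi r (G r x) = x := by
  induction r with
  | zero => intro x; rfl
  | succ r ih => intro x; simp only [G, Gi]; rw [ih, layer'_layer]

/-- The frequency belonging to the output position `v`: bit reversal. -/
def fr : ℕ → ℕ → ℕ
  | 0, _ => 0
  | r + 1, v => 2 * fr r (v % 2 ^ r) + v / 2 ^ r

theorem G_block (r k : ℕ) (hk : r ≤ k) (x : ℕ → ℂ) (v : ℕ) :
    G r x (2 ^ k + v) = G r (fun u => x (2 ^ k + u)) v := by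
  induction r generalizing x with
  | zero => rfl
  | succ r ih =>
    simp only [G]
    rw [ih (by omega)]
    congr 1
    funext u
    by_cases h : lo r u
    · have h1 : lo r (2 ^ k + u) := (lo_add_block (by omega)).2 h
      rw [layer_lo _ h1, layer_lo _ h]
      simp [add_assoc]
    · have h1 : ¬ lo r (2 ^ k + u) := fun h' => h ((lo_add_block (by omega)).1 h')
      have h2 := not_lo_ge h
      rw [layer_hi _ h1, layer_hi _ h]
      have h3 : (2 ^ k + u) % 2 ^ r = u % 2 ^ r := by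
        rw [Nat.add_mod, Nat.mod_eq_zero_of_dvd (pow_dvd_pow 2 (by omega : r ≤ k))]
        simp
      rw [h3, Nat.add_sub_assoc h2]

/-- The transform computes the Fourier transform. -/
theorem G_eq (r : ℕ) : ∀ (x : ℕ → ℂ) (v : ℕ), v < 2 ^ r →
    G r x v = ∑ j ∈ range (2 ^ r), x j * zt (2 ^ r) (-(j * fr r v : ℕ)) := by
  induction r with
  | zero =>
    intro x v hv
    have : v = 0 := by simpa using hv
    subst this
    simp [G, fr, zt_zero]
  | succ r ih =>
    intro x v hv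
    simp only [G]
    have hsplit : ∀ f : ℕ → ℂ, ∑ j ∈ range (2 ^ (r + 1)), f j =
        ∑ j ∈ range (2 ^ r), (f j + f (2 ^ r + j)) := by
      intro f
      rw [pow_succ, mul_two, sum_range_add, sum_add_distrib]
    have hp : (2 : ℕ) ^ (r + 1) = 2 ^ r * 2 := pow_succ 2 r
    rcases Nat.lt_or_ge v (2 ^ r) with h | h
    · rw [ih _ _ h, hsplit]
      apply sum_congr rfl
      intro j hj
      have hj' : j < 2 ^ r := mem_range.1 hj
      have hlo : lo r j := (lo_top (by omega)).2 hj'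
      rw [layer_lo _ hlo]
      have hfr : fr (r + 1) v = 2 * fr r v := by
        simp [fr, Nat.mod_eq_of_lt h, Nat.div_eq_of_lt h]
      rw [hfr]
      have e1 : zt (2 ^ (r + 1)) (-(j * (2 * fr r v) : ℕ)) = zt (2 ^ r) (-(j * fr r v : ℕ)) := by
        rw [hp]
        rw [show (-((j * (2 * fr r v) : ℕ) : ℤ)) = (-((j * fr r v : ℕ) : ℤ)) * (2 : ℕ) by
          push_cast; ring]
        exact zt_scale (by norm_num) _
      have e2 : zt (2 ^ (r + 1)) (-((2 ^ r + j) * (2 * fr r v) : ℕ)) =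
          zt (2 ^ r) (-(j * fr r v : ℕ)) := by
        rw [hp]
        rw [show (-(((2 ^ r + j) * (2 * fr r v) : ℕ) : ℤ)) =
          (-((j * fr r v : ℕ) : ℤ) + (-(fr r v : ℤ)) * ((2 ^ r : ℕ) : ℤ)) * (2 : ℕ) by
          push_cast; ring]
        rw [zt_scale (by norm_num), zt_add, zt_mul_self (by positivity), mul_one]
      rw [e1, e2]
      rw [add_comm j (2 ^ r)]
      ring
    · obtain ⟨u, rfl⟩ := Nat.exists_eq_add_of_le h
      have hu : u < 2 ^ r := by omega
      rw [G_block r r le_rfl, ih _ _ hu, hsplit]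
      apply sum_congr rfl
      intro j hj
      have hj' : j < 2 ^ r := mem_range.1 hj
      have hlo : ¬ lo r (2 ^ r + j) := by
        rw [lo_top (by omega)]
        omega
      rw [layer_hi _ hlo]
      have hfr : fr (r + 1) (2 ^ r + u) = 2 * fr r u + 1 := by
        simp only [fr]
        rw [Nat.add_mod_left, Nat.mod_eq_of_lt hu, Nat.add_div_left _ (by positivity),
          Nat.div_eq_of_lt hu]
      have hm : (2 ^ r + j) % 2 ^ r = j := by
        rw [Nat.add_mod_left, Nat.mod_eq_of_lt hj']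
      rw [hfr, hm]
      have hsub : 2 ^ r + j - 2 ^ r = j := by omega
      rw [hsub]
      have e1 : zt (2 ^ (r + 1)) (-(j * (2 * fr r u + 1) : ℕ)) =
          zt (2 ^ (r + 1)) (-(j : ℤ)) * zt (2 ^ r) (-(j * fr r u : ℕ)) := by
        have : zt (2 ^ r) (-(j * fr r u : ℕ)) =
            zt (2 ^ (r + 1)) ((-((j * fr r u : ℕ) : ℤ)) * (2 : ℕ)) := by
          rw [hp]
          exact (zt_scale (by norm_num) _).symm
        rw [this, ← zt_add]
        congr 1
        push_cast
        ring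
      have e2 : zt (2 ^ (r + 1)) (-((2 ^ r + j) * (2 * fr r u + 1) : ℕ)) =
          -(zt (2 ^ (r + 1)) (-(j : ℤ)) * zt (2 ^ r) (-(j * fr r u : ℕ))) := by
        have h1 : (-(((2 ^ r + j) * (2 * fr r u + 1) : ℕ) : ℤ)) =
            (-((j * (2 * fr r u + 1) : ℕ) : ℤ)) + ((-(fr r u : ℤ) - 1) * ((2 ^ (r + 1) : ℕ) : ℤ) +
              ((2 ^ r : ℕ) : ℤ)) := by
          push_cast
          ring
        have h2 : zt (2 ^ (r + 1)) ((2 ^ r : ℕ) : ℤ) = -1 := by
          have := zt_half (N := 2 ^ r) (by positivity)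
          rw [hp, mul_comm]
          exact this
        rw [h1, zt_add, zt_add, zt_mul_self (by positivity), h2, e1]
        ring
      rw [e1, e2]
      ring

/-- Locality of the layers. -/
theorem layer_congr {r t : ℕ} (htr : t < r) {x y : ℕ → ℂ} (h : ∀ v < 2 ^ r, x v = y v) :
    ∀ v < 2 ^ r, layer t x v = layer t y v := by
  intro v hv
  by_cases hl : lo t v
  · rw [layer_lo _ hl, layer_lo _ hl, h v hv, h _ (lo_lt hl htr hv)]
  · rw [layer_hi _ hl, layer_hi _ hl, h v hv, h _ (Nat.lt_of_le_of_lt (Nat.sub_le _ _) hv)]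

theorem dnv_congr {r t : ℕ} (htr : t < r) {x y : ℕ → ℂ} (h : ∀ v < 2 ^ r, x v = y v) :
    ∀ v < 2 ^ r, dnv t x v = dnv t y v := by
  intro v hv
  by_cases hl : lo t v
  · simp only [dnv, hl, if_true]
    rw [h v hv, h _ (lo_lt hl htr hv)]
  · simp only [dnv, hl, if_false]
    exact h v hv

theorem upv_congr {r t : ℕ} {x y : ℕ → ℂ} (h : ∀ v < 2 ^ r, x v = y v) :
    ∀ v < 2 ^ r, upv t x v = upv t y v := by
  intro v hv
  by_cases hl : lo t v
  · simp only [upv, hl, if_true]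
    exact h v hv
  · simp only [upv, hl, if_false]
    rw [h v hv, h _ (Nat.lt_of_le_of_lt (Nat.sub_le _ _) hv)]

theorem dgv_congr {R : ℕ} {x y : ℕ → ℂ} (g : ℕ → ℂ) (h : ∀ v < R, x v = y v) :
    ∀ v < R, dgv g x v = dgv g y v := by
  intro v hv
  simp only [dgv]
  rw [h v hv]

theorem layer'_congr {r t : ℕ} (htr : t < r) {x y : ℕ → ℂ} (h : ∀ v < 2 ^ r, x v = y v) :
    ∀ v < 2 ^ r, layer' t x v = layer' t y v := by
  unfold layer'
  exact upv_congr (dgv_congr _ (dnv_congr htr (dgv_congr _ h)))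

theorem G_congr {r k : ℕ} (hrk : r ≤ k) {x y : ℕ → ℂ} (h : ∀ v < 2 ^ k, x v = y v) :
    ∀ v < 2 ^ k, G r x v = G r y v := by
  induction r generalizing x y with
  | zero => exact h
  | succ r ih => exact ih (by omega) (layer_congr (by omega) h)

theorem Gi_congr {r k : ℕ} (hrk : r ≤ k) {x y : ℕ → ℂ} (h : ∀ v < 2 ^ k, x v = y v) :
    ∀ v < 2 ^ k, Gi r x v = Gi r y v := by
  induction r generalizing x y with
  | zero => exact h
  | succ r ih => exact layer'_congr (by omega) (ih (by omega) h)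

end Vale.Agent.P338.R3.H352
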