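import Vale.Agent.P338.R3.H352.Toep

/-!
P338-D: the program of the in-place transform of order `s` on two registers of `2 ^ a` cells:
a list of layers of three kinds, independent of `s`.
-/

namespace Vale.Agent.P338.R3.H352

open Complex Finset

/-- Codes of the diagonals. -/
inductive Dc where
  /-- `1` or `-2` according to the bit `t` -/
  | bA (t : ℕ)
  /-- twiddle factors at the bit `t` -/
  | bB (t : ℕ)
  /-- inverse twiddle factors at the bit `t`, halved -/
  | bC (t : ℕ)
  /-- powers of the root of order `2 ^ (a + 1)`, inverse if `neg` -/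
  | psi (neg : Bool)
  /-- chirp before the transfer from the register `w` to the other one -/
  | pre (w : Bool)
  /-- chirp and mask after the transfer -/
  | post (w : Bool)
  /-- eigenvalues of the circulant -/
  | mul (w sg : Bool)
  /-- inverse eigenvalues -/
  | div (w sg : Bool)

/-- Codes of the layers. -/
inductive Ly where
  /-- `x[bit t = 0] += x[bit t = 1]` -/
  | dn (t : ℕ)
  /-- `x[bit t = 1] += x[bit t = 0]` -/
  | up (t : ℕ)
  /-- pointwise multiplication -/
  | dg (c : Dc)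

/-- The sign of the exponent. -/
def sgw (w : Bool) : ℤ := if w then -1 else 1

/-- The factor of the transfer. -/
noncomputable def fac (s : ℕ) (w : Bool) : ℂ := if w then -(1 / (s : ℂ)) else 1

/-- The chirp. -/
noncomputable def chp (s : ℕ) (w : Bool) (d : ℤ) : ℂ := zt s (sgw w * ((s + 1) / 2 : ℕ) * (d * d))

/-- The inverse chirp. -/
noncomputable def chi (s : ℕ) (w : Bool) (d : ℤ) : ℂ :=
  zt s (-(sgw w * ((s + 1) / 2 : ℕ) * (d * d)))

/-- The Toeplitz symbol. -/
noncomputable def tau (s : ℕ) (w : Bool) (d : ℤ) : ℂ := fac s w * chi s w d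

/-- The eigenvalues. -/
noncomputable def lam (a s : ℕ) (w sg : Bool) (v : ℕ) : ℂ :=
  lamc a (tsy a (tau s w) (2 ^ (a + 1)) sg) v

/-- The register bit of a position. -/
def rb (a p : ℕ) : Bool := decide (p / 2 ^ a % 2 = 1)

/-- The value of a diagonal at a position. -/
noncomputable def Dc.val (a s : ℕ) : Dc → ℕ → ℂ
  | .bA t, p => gA t p
  | .bB t, p => gB t p
  | .bC t, p => gB' t p
  | .psi neg, p => zt (2 ^ (a + 1)) (if neg then -((p % 2 ^ a : ℕ) : ℤ) else ((p % 2 ^ a : ℕ) : ℤ))
  | .pre w, p => if rb a p = w then chp s w (p % 2 ^ a : ℕ) else chi s w (p % 2 ^ a : ℕ)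
  | .post w, p => if rb a p = w then chi s w (p % 2 ^ a : ℕ) else
      if p % 2 ^ a < s then chp s w (p % 2 ^ a : ℕ) else 0
  | .mul w sg, p => if rb a p = w then lam a s w sg (p % 2 ^ a) else 1
  | .div w sg, p => if rb a p = w then (lam a s w sg (p % 2 ^ a))⁻¹ else 1

/-- The action of a layer. -/
noncomputable def Ly.ap (a s : ℕ) : Ly → (ℕ → ℂ) → ℕ → ℂ
  | .dn t, x => dnv t x
  | .up t, x => upv t x
  | .dg c, x => dgv (c.val a s) x

/-- The action of a list of layers, the head first. -/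
noncomputable def run (a s : ℕ) (l : List Ly) (x : ℕ → ℂ) : ℕ → ℂ :=
  l.foldl (fun x o => o.ap a s x) x

theorem run_nil (a s : ℕ) (x : ℕ → ℂ) : run a s [] x = x := rfl

theorem run_cons (a s : ℕ) (o : Ly) (l : List Ly) (x : ℕ → ℂ) :
    run a s (o :: l) x = run a s l (o.ap a s x) := rfl

theorem run_append (a s : ℕ) (l m : List Ly) (x : ℕ → ℂ) :
    run a s (l ++ m) x = run a s m (run a s l x) := by
  simp [run, List.foldl_append]

/-- The transform of order `2 ^ r`. -/
def gL : ℕ → List Ly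
  | 0 => []
  | r + 1 => [Ly.dn r, Ly.dg (.bA r), Ly.up r, Ly.dg (.bB r)] ++ gL r

/-- Its inverse. -/
def giL : ℕ → List Ly
  | 0 => []
  | r + 1 => giL r ++ [Ly.dg (.bC r), Ly.dn r, Ly.dg (.bA r), Ly.up r]

/-- The layer on the register bit, source `w`. -/
def zr (a : ℕ) (w : Bool) : Ly := if w then .dn a else .up a

/-- The transfer by one circulant. -/
def half (a : ℕ) (w sg : Bool) : List Ly :=
  gL a ++ ([Ly.dg (.mul w sg), zr a w, Ly.dg (.div w sg)] ++ giL a)

/-- The transfer by the transform of order `s`, from the register `w` to the other one. -/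
def blk (a : ℕ) (w : Bool) : List Ly :=
  [Ly.dg (.pre w)] ++ (half a w false ++ ([Ly.dg (.psi false)] ++ (half a w true ++
    [Ly.dg (.psi true), Ly.dg (.post w)])))

/-- The program. -/
def prog (a : ℕ) : List Ly := blk a false ++ (blk a true ++ blk a false)

theorem run_gL (a s r : ℕ) : ∀ x, run a s (gL r) x = G r x := by
  induction r with
  | zero => intro x; rfl
  | succ r ih =>
    intro x
    rw [gL, run_append, ih]
    rfl

theorem run_giL (a s r : ℕ) : ∀ x, run a s (giL r) x = Gi r x := by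
  induction r with
  | zero => intro x; rfl
  | succ r ih =>
    intro x
    rw [giL, run_append, ih]
    rfl

/-- The position of the cell `v` of the register `b`. -/
def pos (a : ℕ) (b : Bool) (v : ℕ) : ℕ := if b then 2 ^ a + v else v

theorem rb_pos {a v : ℕ} (b : Bool) (hv : v < 2 ^ a) : rb a (pos a b v) = b := by
  unfold rb pos
  cases b
  · simp [Nat.div_eq_of_lt hv]
  · simp [Nat.add_div_left _ (show 0 < 2 ^ a by positivity), Nat.div_eq_of_lt hv]

theorem mod_pos {a v : ℕ} (b : Bool) (hv : v < 2 ^ a) : pos a b v % 2 ^ a = v := by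
  unfold pos
  cases b
  · simp [Nat.mod_eq_of_lt hv]
  · simp [Nat.mod_eq_of_lt hv]

/-- The register `w` holds `z`, the other one holds `u`. -/
structure Sw (w : Bool) (a : ℕ) (f z u : ℕ → ℂ) : Prop where
  src : ∀ v < 2 ^ a, f (pos a w v) = z v
  tgt : ∀ v < 2 ^ a, f (pos a (!w) v) = u v

theorem Sw.cast {w : Bool} {a : ℕ} {f z u z' u' : ℕ → ℂ} (h : Sw w a f z u)
    (hz : ∀ v < 2 ^ a, z v = z' v) (hu : ∀ v < 2 ^ a, u v = u' v) : Sw w a f z' u' :=
  ⟨fun v hv => (h.src v hv).trans (hz v hv), fun v hv => (h.tgt v hv).trans (hu v hv)⟩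

theorem Sw.of_false {a : ℕ} {f z u : ℕ → ℂ} (h : Sw false a f z u) : St a f z u :=
  ⟨fun v hv => by simpa [pos] using h.src v hv, fun v hv => by simpa [pos] using h.tgt v hv⟩

theorem Sw.of_true {a : ℕ} {f z u : ℕ → ℂ} (h : Sw true a f z u) : St a f u z :=
  ⟨fun v hv => by simpa [pos] using h.tgt v hv, fun v hv => by simpa [pos] using h.src v hv⟩

theorem Sw.mk_false {a : ℕ} {f z u : ℕ → ℂ} (h : St a f z u) : Sw false a f z u :=
  ⟨fun v hv => by simpa [pos] using h.lo v hv, fun v hv => by simpa [pos] using h.hi v hv⟩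

theorem Sw.mk_true {a : ℕ} {f z u : ℕ → ℂ} (h : St a f u z) : Sw true a f z u :=
  ⟨fun v hv => by simpa [pos] using h.hi v hv, fun v hv => by simpa [pos] using h.lo v hv⟩

theorem Sw.dg {w : Bool} {a : ℕ} {f z u : ℕ → ℂ} (h : Sw w a f z u) (g : ℕ → ℂ) :
    Sw w a (dgv g f) (fun v => g (pos a w v) * z v) (fun v => g (pos a (!w) v) * u v) :=
  ⟨fun v hv => by simp only [dgv]; rw [h.src v hv], fun v hv => by
    simp only [dgv]; rw [h.tgt v hv]⟩

theorem Sw.zr {w : Bool} {a : ℕ} {f z u : ℕ → ℂ} (s : ℕ) (h : Sw w a f z u) :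
    Sw w a ((H352.zr a w).ap a s f) z (fun v => u v + z v) := by
  cases w
  · exact Sw.mk_false h.of_false.upR
  · exact Sw.mk_true h.of_true.dnR

theorem Sw.G {w : Bool} {a : ℕ} {f z u : ℕ → ℂ} (h : Sw w a f z u) :
    Sw w a (H352.G a f) (H352.G a z) (H352.G a u) := by
  cases w
  · exact Sw.mk_false h.of_false.G
  · exact Sw.mk_true h.of_true.G

theorem Sw.circ {w : Bool} {a : ℕ} {f z u : ℕ → ℂ} (c : ℕ → ℂ)
    (h : Sw w a f (H352.G a z) (fun v => H352.G a u v + lamc a c v * H352.G a z v)) :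
    Sw w a (H352.Gi a f) z (fun k => u k + H352.circ a c z k) := by
  cases w
  · exact Sw.mk_false (h.of_false.circ0 c)
  · exact Sw.mk_true (h.of_true.circ1 c)

end Vale.Agent.P338.R3.H352
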