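import Vale.Agent.P338.R3.H352.Fft

/-!
P338-D: two registers of `2 ^ a` cells each, register bit `a`; the effect of the layers.
-/

namespace Vale.Agent.P338.R3.H352

open Complex Finset

/-- The array `f` holds the register values `x` (register bit `0`) and `y` (register bit `1`). -/
structure St (a : ℕ) (f x y : ℕ → ℂ) : Prop where
  lo : ∀ v < 2 ^ a, f v = x v
  hi : ∀ v < 2 ^ a, f (2 ^ a + v) = y v

theorem St.cast {a : ℕ} {f x y x' y' : ℕ → ℂ} (h : St a f x y) (hx : ∀ v < 2 ^ a, x v = x' v)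
    (hy : ∀ v < 2 ^ a, y v = y' v) : St a f x' y' :=
  ⟨fun v hv => (h.lo v hv).trans (hx v hv), fun v hv => (h.hi v hv).trans (hy v hv)⟩

theorem St.dg {a : ℕ} {f x y : ℕ → ℂ} (h : St a f x y) (g : ℕ → ℂ) :
    St a (dgv g f) (fun v => g v * x v) (fun v => g (2 ^ a + v) * y v) :=
  ⟨fun v hv => by simp only [dgv]; rw [h.lo v hv], fun v hv => by simp only [dgv]; rw [h.hi v hv]⟩

theorem St.dnR {a : ℕ} {f x y : ℕ → ℂ} (h : St a f x y) :
    St a (dnv a f) (fun v => x v + y v) y := by
  constructor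
  · intro v hv
    have h1 : H352.lo a v := (lo_top (by rw [pow_succ]; omega)).2 hv
    simp only [dnv, h1, if_true]
    rw [h.lo v hv, add_comm v, h.hi v hv]
  · intro v hv
    have h1 : ¬ H352.lo a (2 ^ a + v) := by
      rw [lo_top (by rw [pow_succ]; omega)]
      omega
    simp only [dnv, h1, if_false]
    exact h.hi v hv

theorem St.upR {a : ℕ} {f x y : ℕ → ℂ} (h : St a f x y) :
    St a (upv a f) x (fun v => y v + x v) := by
  constructor
  · intro v hv
    have h1 : H352.lo a v := (lo_top (by rw [pow_succ]; omega)).2 hv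
    simp only [upv, h1, if_true]
    rw [h.lo v hv]
  · intro v hv
    have h1 : ¬ H352.lo a (2 ^ a + v) := by
      rw [lo_top (by rw [pow_succ]; omega)]
      omega
    simp only [upv, h1, if_false]
    rw [h.hi v hv, Nat.add_sub_cancel_left, h.lo v hv]

theorem St.G {a : ℕ} {f x y : ℕ → ℂ} (h : St a f x y) :
    St a (H352.G a f) (H352.G a x) (H352.G a y) := by
  constructor
  · intro v hv
    exact G_congr le_rfl h.lo v hv
  · intro v hv
    rw [G_block a a le_rfl]
    exact G_congr le_rfl h.hi v hv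

theorem layer'_block {t k : ℕ} (hk : t < k) (x : ℕ → ℂ) (v : ℕ) :
    layer' t x (2 ^ k + v) = layer' t (fun u => x (2 ^ k + u)) v := by
  unfold layer'
  have hm : ∀ u, (2 ^ k + u) % 2 ^ t = u % 2 ^ t := by
    intro u
    rw [Nat.add_mod, Nat.mod_eq_zero_of_dvd (pow_dvd_pow 2 (by omega : t ≤ k))]
    simp
  have hg : ∀ u, dgv (gB' t) x (2 ^ k + u) = dgv (gB' t) (fun u => x (2 ^ k + u)) u := by
    intro u
    simp only [dgv, gB']
    by_cases h : H352.lo t u
    · have h1 : H352.lo t (2 ^ k + u) := (lo_add_block hk).2 h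
      simp [h, h1]
    · have h1 : ¬ H352.lo t (2 ^ k + u) := fun h' => h ((lo_add_block hk).1 h')
      simp only [h, h1, if_false]
      rw [hm]
  by_cases h : H352.lo t v
  · have h1 : H352.lo t (2 ^ k + v) := (lo_add_block hk).2 h
    rw [bf_lo _ h1, bf_lo _ h, add_assoc, hg, hg]
  · have h1 : ¬ H352.lo t (2 ^ k + v) := fun h' => h ((lo_add_block hk).1 h')
    rw [bf_hi _ h1, bf_hi _ h, Nat.add_sub_assoc (not_lo_ge h), hg, hg]

theorem Gi_block (r k : ℕ) (hk : r ≤ k) (x : ℕ → ℂ) :
    ∀ v, Gi r x (2 ^ k + v) = Gi r (fun u => x (2 ^ k + u)) v := by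
  induction r generalizing x with
  | zero => intro v; rfl
  | succ r ih =>
    intro v
    simp only [Gi]
    rw [layer'_block (by omega)]
    congr 1
    funext u
    exact ih (by omega) x u

theorem St.Gi {a : ℕ} {f x y : ℕ → ℂ} (h : St a f x y) :
    St a (H352.Gi a f) (H352.Gi a x) (H352.Gi a y) := by
  constructor
  · intro v hv
    exact Gi_congr le_rfl h.lo v hv
  · intro v hv
    rw [Gi_block a a le_rfl]
    exact Gi_congr le_rfl h.hi v hv

end Vale.Agent.P338.R3.H352
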