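import Vale.Agent.P338.R3.H352.Circ

/-!
P338-D: a Toeplitz matrix of order `2 ^ a` is half the sum of a circulant and a skew circulant;
the chirp identity; the inversion formula of the transform of order `s`.
-/

namespace Vale.Agent.P338.R3.H352

open Complex Finset

/-- The symbol of the circulant part (`sg = false`) or of the skew part (`sg = true`), twisted. -/
noncomputable def tsym (a : ℕ) (τ : ℤ → ℂ) (sg : Bool) (d : ℕ) : ℂ :=
  if sg then (τ d - τ (d - 2 ^ a)) / 2 * zt (2 ^ (a + 1)) d else (τ d + τ (d - 2 ^ a)) / 2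

theorem zt_half_pow (a : ℕ) : zt (2 ^ (a + 1)) ((2 ^ a : ℕ) : ℤ) = -1 := by
  have := zt_half (N := 2 ^ a) (by positivity)
  rw [pow_succ, mul_comm]
  exact this

theorem toep_eq (a : ℕ) (τ : ℤ → ℂ) (z : ℕ → ℂ) (k : ℕ) (hk : k < 2 ^ a) :
    circ a (tsym a τ false) z k + zt (2 ^ (a + 1)) (-(k : ℤ)) *
      circ a (tsym a τ true) (fun j => zt (2 ^ (a + 1)) j * z j) k =
      ∑ j ∈ range (2 ^ a), τ ((k : ℤ) - j) * z j := by
  unfold circ
  rw [mul_sum, ← sum_add_distrib]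
  apply sum_congr rfl
  intro j hj
  have hj' := mem_range.1 hj
  simp only [tsym, if_true]
  have hf : (false = true) = False := by simp
  simp only [hf, if_false]
  rcases Nat.lt_or_ge k j with h | h
  · have e1 : (k + (2 ^ a - j)) % 2 ^ a = k + (2 ^ a - j) := Nat.mod_eq_of_lt (by omega)
    rw [e1]
    have e2 : (((k + (2 ^ a - j) : ℕ)) : ℤ) = (k : ℤ) - j + 2 ^ a := by
      push_cast [Nat.cast_sub hj'.le]
      ring
    rw [e2]
    have e3 : (k : ℤ) - j + 2 ^ a - 2 ^ a = (k : ℤ) - j := by ring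
    rw [e3]
    have e4 : zt (2 ^ (a + 1)) (-(k : ℤ)) * (zt (2 ^ (a + 1)) ((k : ℤ) - j + 2 ^ a) *
        zt (2 ^ (a + 1)) j) = -1 := by
      rw [← zt_add, ← zt_add]
      rw [show (-(k : ℤ)) + ((k : ℤ) - j + 2 ^ a + j) = ((2 ^ a : ℕ) : ℤ) by push_cast; ring]
      exact zt_half_pow a
    linear_combination ((τ ((k : ℤ) - j + 2 ^ a) - τ ((k : ℤ) - j)) / 2 * z j) * e4
  · have e1 : (k + (2 ^ a - j)) % 2 ^ a = k - j := by
      rw [show k + (2 ^ a - j) = (k - j) + 2 ^ a by omega, Nat.add_mod_right]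
      exact Nat.mod_eq_of_lt (by omega)
    rw [e1]
    have e2 : ((k - j : ℕ) : ℤ) = (k : ℤ) - j := Nat.cast_sub h
    rw [e2]
    have e4 : zt (2 ^ (a + 1)) (-(k : ℤ)) * (zt (2 ^ (a + 1)) ((k : ℤ) - j) *
        zt (2 ^ (a + 1)) j) = 1 := by
      rw [← zt_add, ← zt_add]
      rw [show (-(k : ℤ)) + ((k : ℤ) - j + j) = 0 by ring]
      exact zt_zero _
    linear_combination ((τ ((k : ℤ) - j) - τ ((k : ℤ) - j - 2 ^ a)) / 2 * z j) * e4

theorem circ_delta (a : ℕ) (c z : ℕ → ℂ) (κ : ℂ) (k : ℕ) (hk : k < 2 ^ a) :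
    circ a (fun d => c d + if d = 0 then κ else 0) z k = circ a c z k + κ * z k := by
  unfold circ
  simp only [add_mul, sum_add_distrib]
  congr 1
  have h1 : ∀ j ∈ range (2 ^ a), (if (k + (2 ^ a - j)) % 2 ^ a = 0 then κ else 0) * z j =
      if j = k then κ * z j else 0 := by
    intro j hj
    have hj' := mem_range.1 hj
    have h2 : (k + (2 ^ a - j)) % 2 ^ a = 0 ↔ j = k := by
      rcases Nat.lt_or_ge k j with h | h
      · have e1 : (k + (2 ^ a - j)) % 2 ^ a = k + (2 ^ a - j) := Nat.mod_eq_of_lt (by omega)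
        rw [e1]
        omega
      · have e1 : (k + (2 ^ a - j)) % 2 ^ a = k - j := by
          rw [show k + (2 ^ a - j) = (k - j) + 2 ^ a by omega, Nat.add_mod_right]
          exact Nat.mod_eq_of_lt (by omega)
        rw [e1]
        omega
    by_cases h3 : j = k
    · rw [if_pos (h2.2 h3), if_pos h3]
    · have h4 : ¬ (k + (2 ^ a - j)) % 2 ^ a = 0 := fun h => h3 (h2.1 h)
      simp [h3, h4]
  rw [sum_congr rfl h1, sum_ite_eq' (range (2 ^ a)) k]
  simp [hk]

/-- The symbol with the offset `± κ` on the diagonal. -/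
noncomputable def tsy (a : ℕ) (τ : ℤ → ℂ) (κ : ℂ) (sg : Bool) (d : ℕ) : ℂ :=
  tsym a τ sg d + if d = 0 then (if sg then -κ else κ) else 0

theorem toep_eq' (a : ℕ) (τ : ℤ → ℂ) (κ : ℂ) (z : ℕ → ℂ) (k : ℕ) (hk : k < 2 ^ a) :
    circ a (tsy a τ κ false) z k + zt (2 ^ (a + 1)) (-(k : ℤ)) *
      circ a (tsy a τ κ true) (fun j => zt (2 ^ (a + 1)) j * z j) k =
      ∑ j ∈ range (2 ^ a), τ ((k : ℤ) - j) * z j := by
  unfold tsy
  rw [circ_delta _ _ _ _ _ hk, circ_delta _ _ _ _ _ hk, ← toep_eq a τ z k hk]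
  simp only [if_true]
  have hf : (false = true) = False := by simp
  simp only [hf, if_false]
  linear_combination (-κ * z k) * zt_neg_mul (2 ^ (a + 1)) (k : ℤ)

/-- The chirp identity. -/
theorem chirp {s : ℕ} (hs : s % 2 = 1) (σ k j : ℤ) :
    zt s (σ * ((s + 1) / 2 : ℕ) * (k * k)) * (zt s (-(σ * ((s + 1) / 2 : ℕ) * ((k - j) * (k - j)))) *
      zt s (σ * ((s + 1) / 2 : ℕ) * (j * j))) = zt s (σ * (k * j)) := by
  rw [← zt_add, ← zt_add]
  obtain ⟨m, hm⟩ : ∃ m, s = 2 * m + 1 := ⟨s / 2, by omega⟩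
  have h1 : (s + 1) / 2 = m + 1 := by omega
  rw [h1]
  apply zt_congr (by omega)
  rw [Int.modEq_iff_dvd]
  refine ⟨-(σ * (k * j)), ?_⟩
  rw [hm]
  push_cast
  ring

/-- The transform of order `s` with the root `exp (2 pi i σ / s)`. -/
noncomputable def dft (s : ℕ) (σ : ℤ) (x : ℕ → ℂ) (k : ℕ) : ℂ :=
  ∑ j ∈ range s, zt s (σ * ((k : ℤ) * j)) * x j

theorem dft_inv {s : ℕ} (hs : 0 < s) {σ : ℤ} (hσ : σ = 1 ∨ σ = -1) (x : ℕ → ℂ) (k : ℕ) (hk : k < s) :
    dft s (-σ) (dft s σ x) k = s * x k := by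
  unfold dft
  have h1 : ∀ j ∈ range s, zt s (-σ * ((k : ℤ) * j)) * ∑ i ∈ range s, zt s (σ * ((j : ℤ) * i)) * x i =
      ∑ i ∈ range s, x i * zt s ((j : ℤ) * (σ * ((i : ℤ) - k))) := by
    intro j _
    rw [mul_sum]
    apply sum_congr rfl
    intro i _
    rw [← mul_assoc, ← zt_add, mul_comm]
    congr 2
    ring
  rw [sum_congr rfl h1, sum_comm]
  have h2 : ∀ i ∈ range s, ∑ j ∈ range s, x i * zt s ((j : ℤ) * (σ * ((i : ℤ) - k))) =
      if i = k then (s : ℂ) * x i else 0 := by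
    intro i hi
    rw [← mul_sum, sum_zt hs]
    have hi' := mem_range.1 hi
    have h3 : ((s : ℤ) ∣ σ * ((i : ℤ) - k)) ↔ i = k := by
      constructor
      · intro h
        have h4 : (s : ℤ) ∣ (i : ℤ) - k := by
          rcases hσ with h5 | h5
          · rw [h5, one_mul] at h; exact h
          · rw [h5, neg_one_mul] at h
            exact (Int.dvd_neg).1 h
        have h6 : ((i : ℤ) - k) = 0 := by
          apply Int.eq_zero_of_abs_lt_dvd h4
          rw [abs_lt]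
          constructor <;> omega
        omega
      · intro h
        rw [h]
        simp
    simp only [h3]
    split_ifs with h
    · ring
    · ring
  rw [sum_congr rfl h2, sum_ite_eq' (range s) k]
  simp [hk]

end Vale.Agent.P338.R3.H352
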